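import Vale.Agent.P207.N4.Dim
import Vale.Agent.P207.N3.H908.BD
import Vale.Agent.P207.N4.H459.Slice

/-!
# The geodesic `(ξ, η)` meets a disc in a point which depends smoothly on `ξ`, `η`
(helper908, line N3 of P207, row P12G)
-/

set_option linter.unusedSectionVars false

open Set Filter Topology Metric
open scoped ContDiff

noncomputable section

namespace Vale.Agent.P207.N4.H908

open Vale.Agent.P207.N3 Vale.Agent.P207.N3.H908

variable [Dim]

open Vale.Agent.P207.N4.H459 Vale.Agent.P207.N3.H459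

theorem isInvertible_of_bijective {E F : Type} [NormedAddCommGroup E] [NormedSpace ℝ E]
    [FiniteDimensional ℝ E] [NormedAddCommGroup F] [NormedSpace ℝ F] {A : E →L[ℝ] F}
    (h : Function.Bijective A) : A.IsInvertible := by
  refine ⟨(LinearEquiv.ofBijective A.toLinearMap h).toContinuousLinearEquiv, ?_⟩
  ext1 v
  rfl

/-- an injective map from `E2` to its dual is invertible -/
theorem isInvertible_dual {A : E2 →L[ℝ] E2 →L[ℝ] ℝ} (h : ∀ v, v ≠ 0 → A v v ≠ 0) :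
    A.IsInvertible := by
  refine isInvertible_of_bijective ?_
  have hinj : Function.Injective A.toLinearMap := by
    rw [injective_iff_map_eq_zero]
    intro v hv
    by_contra hne
    refine h v hne ?_
    have : A v = 0 := hv
    rw [this]
    rfl
  have hfin : Module.finrank ℝ E2 = Module.finrank ℝ (E2 →L[ℝ] ℝ) :=
    (InnerProductSpace.toDual ℝ E2).toLinearEquiv.finrank_eq
  exact ⟨hinj, (LinearMap.injective_iff_surjective_of_finrank_eq_finrank
    (f := A.toLinearMap) hfin).1 hinj⟩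

/-- Slices and Busemann functions of one space. -/
structure SB (X B V : Type) [TopologicalSpace X] [TopologicalSpace B]
    [NormedAddCommGroup V] [NormedSpace ℝ V] where
  L : Slice X B V
  D : BD B V
  line_eq : ∀ ξ q, L.line ξ q = D.line ξ q
  psi_deriv : ∀ ξ q, HasDerivAt (fun s => L.psi ξ s q) (D.vel ξ q) 0

namespace SB

variable {X B V : Type} [TopologicalSpace X] [TopologicalSpace B] [CompactSpace B] [T2Space B]
  [NormedAddCommGroup V] [NormedSpace ℝ V] [FiniteDimensional ℝ V]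
  (M : SB X B V)

/-- the disc of the frame `x` -/
def P (x : X) (a : E2) : V := M.L.A x (0, a)

/-- the domain of the discs -/
def BR : Set E2 := ball (0 : E2) M.L.R

theorem isOpen_BR : IsOpen M.BR := isOpen_ball

theorem P_jc : JC M.P (univ ×ˢ M.BR) := by
  have h1 : JC (fun (_ : X) (a : E2) => ((0 : ℝ), a)) (univ ×ˢ M.BR : Set (X × E2)) :=
    JC.of_contDiff (contDiff_const.prodMk contDiff_id) (isOpen_univ.prod M.isOpen_BR)
  exact M.L.A_jc.comp' h1 fun p hp => ⟨mem_univ _, mem_univ _, hp.2⟩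

theorem P_diff (x : X) {a : E2} (ha : a ∈ M.BR) :
    HasFDerivAt (M.P x) (fderiv ℝ (M.P x) a) a :=
  M.P_jc.hasFDerivAt (p := (x, a)) ⟨mem_univ _, ha⟩

theorem A_diff (x : X) {a : E2} (ha : a ∈ M.BR) :
    HasFDerivAt (M.L.A x) (fderiv ℝ (M.L.A x) (0, a)) (0, a) :=
  M.L.A_jc.hasFDerivAt (p := (x, (0, a))) ⟨mem_univ _, mem_univ _, ha⟩

/-- the derivative of the slice map -/
theorem A_fderiv (x : X) {a : E2} (ha : a ∈ M.BR) (s : ℝ) (v : E2) :
    fderiv ℝ (M.L.A x) (0, a) (s, v)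
      = s • M.D.vel (M.L.em x) (M.P x a) + fderiv ℝ (M.P x) a v := by
  have h1 := M.A_diff x ha
  have h2 : HasFDerivAt (M.P x) ((fderiv ℝ (M.L.A x) (0, a)).comp
      (ContinuousLinearMap.inr ℝ ℝ E2)) a := by
    have h3 : HasFDerivAt (fun b : E2 => ((0 : ℝ), b)) (ContinuousLinearMap.inr ℝ ℝ E2) a :=
      hasFDerivAt_prodMk_right 0 a
    exact h1.comp a h3
  have h4 : HasDerivAt (fun t : ℝ => M.L.A x (t, a)) (fderiv ℝ (M.L.A x) (0, a) (1, 0)) 0 := by
    have h5 : HasDerivAt (fun t : ℝ => ((t, a) : ℝ × E2)) ((1 : ℝ), (0 : E2)) 0 :=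
      (hasDerivAt_id 0).prodMk (hasDerivAt_const 0 a)
    exact h1.comp_hasDerivAt 0 h5
  have h6 : (fun t : ℝ => M.L.A x (t, a)) = fun t => M.L.psi (M.L.em x) t (M.P x a) :=
    funext fun t => M.L.A_psi x t a ha
  rw [h6] at h4
  have h7 := h4.unique (M.psi_deriv (M.L.em x) (M.P x a))
  have h8 : ((s, v) : ℝ × E2) = s • ((1 : ℝ), (0 : E2)) + ((0 : ℝ), v) := by
    ext1 <;> simp
  rw [h8, map_add, map_smul, h7, h2.fderiv]
  rfl

/-- the disc is transversal to the geodesics from `em x` -/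
theorem transv (x : X) {a : E2} (ha : a ∈ M.BR) {v : E2} (hv : v ≠ 0) (c : ℝ) :
    fderiv ℝ (M.P x) a v ≠ c • M.D.vel (M.L.em x) (M.P x a) := by
  intro h
  have h1 := M.A_fderiv x ha c 0
  have h2 := M.A_fderiv x ha 0 v
  rw [map_zero, add_zero] at h1
  rw [zero_smul, zero_add, h, ← h1] at h2
  have h3 := (M.L.A_der x a ha).1 h2
  exact hv (Prod.ext_iff.1 h3).2

/-! ### The crossing lemma -/

section Cross

variable {Z : Type} [TopologicalSpace Z] {E : Type} [NormedAddCommGroup E] [NormedSpace ℝ E]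

/-- the equation for the intersection of the geodesic `(ξ, η)` with the disc of the frame `x` -/
def eqn (ξ η : B) (x : X) (a : E2) : E2 →L[ℝ] ℝ :=
  (M.D.ell ξ (M.P x a) + M.D.ell η (M.P x a)).comp (fderiv ℝ (M.P x) a)

theorem eqn_line {ξ η : B} {x : X} {a : E2} (h : M.D.line ξ (M.P x a) = η) :
    M.eqn ξ η x a = 0 := by
  rw [eqn, ← h, M.D.ell_line, add_neg_cancel]
  rfl

theorem jc_eqn {ξ η : Z → E → B} {y : Z → X} (hy : Continuous y) {S₀ : Set (Z × E)}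
    (hS₀ : IsOpen S₀)
    (hξ : JC (fun z (p : E × V) => M.D.ell (ξ z p.1) p.2) {p | (p.1, p.2.1) ∈ S₀})
    (hη : JC (fun z (p : E × V) => M.D.ell (η z p.1) p.2) {p | (p.1, p.2.1) ∈ S₀}) :
    JC (fun z (p : E × E2) => M.eqn (ξ z p.1) (η z p.1) (y z) p.2)
      {p | (p.1, p.2.1) ∈ S₀ ∧ p.2.2 ∈ M.BR} := by
  set S : Set (Z × (E × E2)) := {p | (p.1, p.2.1) ∈ S₀ ∧ p.2.2 ∈ M.BR} with hS
  have hSo : IsOpen S := by
    refine IsOpen.inter ?_ ?_
    · exact hS₀.preimage (f := fun p : Z × (E × E2) => (p.1, p.2.1)) (by fun_prop)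
    · exact M.isOpen_BR.preimage (f := fun p : Z × (E × E2) => p.2.2) (by fun_prop)
  have hid : JC (fun (_ : Z) (p : E × E2) => p) S := JC.id hSo
  have hPy : JC (fun z => M.P (y z)) {p : Z × E2 | (y p.1, p.2) ∈ (univ ×ˢ M.BR : Set (X × E2))} :=
    M.P_jc.pullback hy
  have hPS : JC (fun z (p : E × E2) => M.P (y z) p.2) S :=
    hPy.comp' hid.snd fun p hp => ⟨mem_univ _, hp.2⟩
  have hdPy : JC (fun z (p : E × E2) => fderiv ℝ (M.P (y z)) p.2) S :=
    (hPy.fderiv).comp' hid.snd fun p hp => ⟨mem_univ _, hp.2⟩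
  have hpair : JC (fun z (p : E × E2) => (p.1, M.P (y z) p.2)) S := hid.fst.prodMk hPS
  have h1 : JC (fun z (p : E × E2) => M.D.ell (ξ z p.1) (M.P (y z) p.2)) S :=
    hξ.comp' hpair fun p hp => hp.1
  have h2 : JC (fun z (p : E × E2) => M.D.ell (η z p.1) (M.P (y z) p.2)) S :=
    hη.comp' hpair fun p hp => hp.1
  exact (h1.add h2).clm_comp hdPy

/-- the derivative of the equation at a solution -/
theorem eqn_fderiv {ξ η : B} {x : X} {a : E2} (ha : a ∈ M.BR)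
    (h : M.D.line ξ (M.P x a) = η) (v w : E2) :
    fderiv ℝ (M.eqn ξ η x) a v w
      = M.D.Sg ξ (M.P x a) (fderiv ℝ (M.P x) a v) (fderiv ℝ (M.P x) a w) := by
  have h1 := M.P_diff x ha
  have hd : HasFDerivAt (fderiv ℝ (M.P x)) (fderiv ℝ (fderiv ℝ (M.P x)) a) a :=
    M.P_jc.fderiv.hasFDerivAt (p := (x, a)) ⟨mem_univ _, ha⟩
  have h2 := ((M.D.ell_diff ξ (M.P x a)).comp a h1).add ((M.D.ell_diff η (M.P x a)).comp a h1)
  have h3 := h2.clm_comp hd
  have h4 : HasFDerivAt (M.eqn ξ η x) _ a := h3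
  rw [h4.fderiv]
  have h5 : M.D.ell ξ (M.P x a) + M.D.ell η (M.P x a) = 0 := by
    rw [← h, M.D.ell_line, add_neg_cancel]
  subst h
  simp only [add_apply, ContinuousLinearMap.comp_apply, ContinuousLinearMap.flip_apply,
    ContinuousLinearMap.compL_apply, BD.Sg, Pi.add_apply, Function.comp_apply]
  have h6 : M.D.ell ξ (M.P x a) (fderiv ℝ (fderiv ℝ (M.P x)) a v w)
      + M.D.ell (M.D.line ξ (M.P x a)) (M.P x a) (fderiv ℝ (fderiv ℝ (M.P x)) a v w) = 0 := by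
    have := congrArg (fun l : V →L[ℝ] ℝ => l (fderiv ℝ (fderiv ℝ (M.P x)) a v w)) h5
    simpa using this
  linarith

theorem eqn_inv {ξ η : B} {x : X} {a : E2} (ha : a ∈ M.BR) (hem : M.L.em x = ξ)
    (h : M.D.line ξ (M.P x a) = η) : (fderiv ℝ (M.eqn ξ η x) a).IsInvertible := by
  refine isInvertible_dual fun v hv => ?_
  rw [M.eqn_fderiv ha h]
  refine (M.D.Sg_pos' fun c => ?_).ne'
  have := M.transv x ha hv c
  rwa [hem] at this

/-- the map which detects that a solution of the equation is a point of the geodesic -/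
def det (ξ η : B) (x : X) (a : E2) : ℝ × E2 →L[ℝ] V :=
  (ContinuousLinearMap.fst ℝ ℝ E2).smulRight (M.D.vel η (M.P x a) - M.D.vel ξ (M.P x a))
    + (fderiv ℝ (M.P x) a).comp (ContinuousLinearMap.snd ℝ ℝ E2)

theorem det_apply (ξ η : B) (x : X) (a : E2) (z : ℝ × E2) :
    M.det ξ η x a z = z.1 • (M.D.vel η (M.P x a) - M.D.vel ξ (M.P x a))
      + fderiv ℝ (M.P x) a z.2 := rfl

theorem det_inv {ξ η : B} {x : X} {a : E2} (ha : a ∈ M.BR) (hem : M.L.em x = ξ)
    (h : M.D.line ξ (M.P x a) = η) : (M.det ξ η x a).IsInvertible := by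
  refine isInvertible_of_bijective ?_
  have hkey : ∀ z : ℝ × E2, M.det ξ η x a z = fderiv ℝ (M.L.A x) (0, a) (-2 * z.1, z.2) := by
    intro z
    rw [M.A_fderiv x ha, det_apply, ← h, M.D.vel_line, hem]
    congr 1
    rw [← neg_add', smul_neg, smul_add, neg_mul, neg_smul, two_mul, add_smul]
  have hb := M.L.A_der x a ha
  constructor
  · intro z z' hz
    rw [hkey, hkey] at hz
    have h1 := hb.1 hz
    rw [Prod.ext_iff] at h1
    refine Prod.ext ?_ h1.2
    have := h1.1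
    simp only at this
    linarith
  · intro q
    obtain ⟨z, hz⟩ := hb.2 q
    refine ⟨(-z.1 / 2, z.2), ?_⟩
    rw [hkey, ← hz]
    congr 1
    ext1
    · simp only
      ring
    · rfl

/-- a solution of the equation is a point of the geodesic -/
theorem line_of_eqn {ξ η : B} {x : X} {a : E2} (h : M.eqn ξ η x a = 0)
    (hd : (M.det ξ η x a).IsInvertible) : M.D.line ξ (M.P x a) = η := by
  set q := M.P x a with hq
  set l : V →L[ℝ] ℝ := M.D.ell ξ q + M.D.ell η q with hl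
  have h1 : ∀ v, l (fderiv ℝ (M.P x) a v) = 0 := fun v =>
    congrArg (fun A : E2 →L[ℝ] ℝ => A v) h
  have h2 : l (M.D.vel η q - M.D.vel ξ q) = 0 := by
    have e1 := M.D.ell_vel ξ q
    have e2 := M.D.ell_vel η q
    have e3 : M.D.ell ξ q (M.D.vel η q) = M.D.ell η q (M.D.vel ξ q) :=
      M.D.sh_symm q (M.D.ell η q) (M.D.ell ξ q)
    rw [hl]
    simp only [add_apply, map_sub]
    linarith
  have h3 : l = 0 := by
    obtain ⟨e, he⟩ := hd
    ext1 v
    have h4 : v = M.det ξ η x a (e.symm v) := by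
      rw [← he]
      simp
    rw [h4, det_apply, map_add, map_smul, ← hq, h2, h1, smul_zero, add_zero]
    rfl
  have h5 : M.D.ell (M.D.line ξ q) q = M.D.ell η q := by
    rw [M.D.ell_line]
    exact (eq_neg_of_add_eq_zero_right h3).symm
  exact M.D.ell_inj h5

/-- **The crossing lemma.** -/
theorem cross [CompleteSpace E] {ξ η : Z → E → B} {y : Z → X} (hy : Continuous y)
    {S₀ : Set (Z × E)} (hS₀ : IsOpen S₀)
    (hξ : JC (fun z (p : E × V) => M.D.ell (ξ z p.1) p.2) {p | (p.1, p.2.1) ∈ S₀})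
    (hη : JC (fun z (p : E × V) => M.D.ell (η z p.1) p.2) {p | (p.1, p.2.1) ∈ S₀})
    {z₀ : Z} {u₀ : E} {a₀ : E2} (h0 : (z₀, u₀) ∈ S₀) (ha₀ : a₀ ∈ M.BR)
    (hem : M.L.em (y z₀) = ξ z₀ u₀) (hc : M.D.line (ξ z₀ u₀) (M.P (y z₀) a₀) = η z₀ u₀) :
    ∃ (T : Set (Z × E)) (φ : Z → E → E2), JC φ T ∧ (z₀, u₀) ∈ T ∧ φ z₀ u₀ = a₀ ∧
      (∀ p ∈ T, p ∈ S₀ ∧ φ p.1 p.2 ∈ M.BR ∧
        M.D.line (ξ p.1 p.2) (M.P (y p.1) (φ p.1 p.2)) = η p.1 p.2) ∧
      ∃ O : Set (Z × (E × E2)), IsOpen O ∧ (z₀, (u₀, a₀)) ∈ O ∧ ∀ p ∈ O,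
        M.D.line (ξ p.1 p.2.1) (M.P (y p.1) p.2.2) = η p.1 p.2.1 →
          (p.1, p.2.1) ∈ T ∧ φ p.1 p.2.1 = p.2.2 := by
  have hj := M.jc_eqn hy hS₀ hξ hη
  obtain ⟨T, φ, h1, h2, h3, h4, O, h5, h6, h7⟩ := hj.implicit (z₀ := z₀) (x₀ := u₀) (y₀ := a₀)
    ⟨h0, ha₀⟩ (M.eqn_inv ha₀ hem hc)
  have hzero : M.eqn (ξ z₀ u₀) (η z₀ u₀) (y z₀) a₀ = 0 := M.eqn_line hc
  -- the open set where `det` is invertible
  set S : Set (Z × (E × E2)) := {p | (p.1, p.2.1) ∈ S₀ ∧ p.2.2 ∈ M.BR} with hS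
  have hdet : ContinuousOn (fun p : Z × (E × E2) =>
      M.det (ξ p.1 p.2.1) (η p.1 p.2.1) (y p.1) p.2.2) S := by
    have hPy : ContinuousOn (fun p : Z × (E × E2) => M.P (y p.1) p.2.2) S :=
      M.P_jc.continuousOn.comp (f := fun p : Z × (E × E2) => (y p.1, p.2.2))
        (by fun_prop) fun p hp => ⟨mem_univ _, hp.2⟩
    have hdP : ContinuousOn (fun p : Z × (E × E2) => fderiv ℝ (M.P (y p.1)) p.2.2) S :=
      M.P_jc.fderiv.continuousOn.comp (f := fun p : Z × (E × E2) => (y p.1, p.2.2))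
        (by fun_prop) fun p hp => ⟨mem_univ _, hp.2⟩
    have hpt : ContinuousOn (fun p : Z × (E × E2) => (p.1, (p.2.1, M.P (y p.1) p.2.2))) S :=
      continuousOn_fst.prodMk ((by fun_prop : ContinuousOn (fun p : Z × (E × E2) => p.2.1) S).prodMk
        hPy)
    have he1 : ContinuousOn (fun p : Z × (E × E2) => M.D.ell (ξ p.1 p.2.1) (M.P (y p.1) p.2.2)) S :=
      hξ.continuousOn.comp (f := fun p : Z × (E × E2) => (p.1, (p.2.1, M.P (y p.1) p.2.2))) hpt
        fun p hp => hp.1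
    have he2 : ContinuousOn (fun p : Z × (E × E2) => M.D.ell (η p.1 p.2.1) (M.P (y p.1) p.2.2)) S :=
      hη.continuousOn.comp (f := fun p : Z × (E × E2) => (p.1, (p.2.1, M.P (y p.1) p.2.2))) hpt
        fun p hp => hp.1
    have hsh : ContinuousOn (fun p : Z × (E × E2) => M.D.sh (M.P (y p.1) p.2.2)) S :=
      M.D.sh_smooth.continuous.comp_continuousOn hPy
    have hv1 : ContinuousOn (fun p : Z × (E × E2) =>
        M.D.vel (ξ p.1 p.2.1) (M.P (y p.1) p.2.2)) S := hsh.clm_apply he1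
    have hv2 : ContinuousOn (fun p : Z × (E × E2) =>
        M.D.vel (η p.1 p.2.1) (M.P (y p.1) p.2.2)) S := hsh.clm_apply he2
    have hs : ContinuousOn (fun p : Z × (E × E2) =>
        (ContinuousLinearMap.fst ℝ ℝ E2).smulRight
          (M.D.vel (η p.1 p.2.1) (M.P (y p.1) p.2.2)
            - M.D.vel (ξ p.1 p.2.1) (M.P (y p.1) p.2.2))) S :=
      ((ContinuousLinearMap.smulRightL ℝ (ℝ × E2) V
        (ContinuousLinearMap.fst ℝ ℝ E2)).continuous).comp_continuousOn (hv2.sub hv1)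
    exact hs.add (hdP.clm_comp continuousOn_const)
  have hSo : IsOpen S := hj.isOpen
  have hG : IsOpen {p ∈ S | (M.det (ξ p.1 p.2.1) (η p.1 p.2.1) (y p.1) p.2.2).IsInvertible} :=
    hdet.isOpen_inter_preimage hSo isOpen_isInvertible
  set G : Set (Z × (E × E2)) :=
    {p ∈ S | (M.det (ξ p.1 p.2.1) (η p.1 p.2.1) (y p.1) p.2.2).IsInvertible} with hGd
  have hgr : ContinuousOn (fun p : Z × E => ((p.1, (p.2, φ p.1 p.2)) : Z × (E × E2))) T :=
    continuousOn_fst.prodMk (continuousOn_snd.prodMk h1.continuousOn)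
  have hT' : IsOpen {p ∈ T | (p.1, (p.2, φ p.1 p.2)) ∈ G} := hgr.isOpen_inter_preimage h1.isOpen hG
  have hbase : (z₀, (u₀, a₀)) ∈ G := ⟨⟨h0, ha₀⟩, M.det_inv ha₀ hem hc⟩
  refine ⟨{p ∈ T | (p.1, (p.2, φ p.1 p.2)) ∈ G}, φ, h1.mono hT' fun p hp => hp.1,
    ⟨h2, ?_⟩, h3, fun p hp => ?_, O ∩ {p | p ∈ G}, h5.inter hG, ⟨h6, hbase⟩, fun p hp hl => ?_⟩
  · change (z₀, (u₀, φ z₀ u₀)) ∈ G
    rw [h3]
    exact hbase
  · obtain ⟨hp1, hp2⟩ := hp
    obtain ⟨h8, h9⟩ := h4 p hp1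
    refine ⟨h8.1, h8.2, ?_⟩
    rw [hzero] at h9
    exact M.line_of_eqn h9 hp2.2
  · obtain ⟨hp1, hp2⟩ := hp
    have h8 := h7 p hp1 (by rw [hzero]; exact M.eqn_line hl)
    refine ⟨⟨h8.1, ?_⟩, h8.2⟩
    change (p.1, (p.2.1, φ p.1 p.2.1)) ∈ G
    rw [h8.2]
    exact hp2

end Cross

end SB

end Vale.Agent.P207.N4.H908
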