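import Vale.Agent.P207.N4.Dim
import Vale.Agent.P207.N4.H908.TauAll

/-!
# The mixed second derivative of `D` (helper908, line N3 of P207, row P12G)

At the frames `z`, `z'` over the point `q` of the geodesic `(ξ, η)`, `ξ = em z' = ep z`,
`η = em z = ep z'`, the mixed second derivative of `D (e z a) (e z' b)` at `(0, 0)` is
`- Sg (DP_z a) (DP_z' b)`. It follows that the mixed second derivative of `D (e x a) (e y b)` is
nondegenerate everywhere.
-/

set_option linter.unusedSectionVars false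

open Set Filter Topology Metric
open scoped ContDiff

noncomputable section

namespace Vale.Agent.P207.N4.H908

open Vale.Agent.P207.N3 Vale.Agent.P207.N3.H908

variable [Dim]

open Vale.Agent.P207.N4.H459 Vale.Agent.P207.N3.H459

section Sym

variable {E F : Type} [NormedAddCommGroup E] [NormedSpace ℝ E] [NormedAddCommGroup F]
  [NormedSpace ℝ F]

/-- the partial derivative in the first variable -/
theorem fderiv_left {W : Type} [NormedAddCommGroup W] [NormedSpace ℝ W] {K : E × F → W}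
    {a : E} {q : F} (h : DifferentiableAt ℝ K (a, q)) :
    HasFDerivAt (fun a => K (a, q)) ((fderiv ℝ K (a, q)).comp (ContinuousLinearMap.inl ℝ E F)) a :=
  h.hasFDerivAt.comp a (hasFDerivAt_prodMk_left a q)

/-- the partial derivative in the second variable -/
theorem fderiv_right {W : Type} [NormedAddCommGroup W] [NormedSpace ℝ W] {K : E × F → W}
    {a : E} {q : F} (h : DifferentiableAt ℝ K (a, q)) :
    HasFDerivAt (fun q => K (a, q)) ((fderiv ℝ K (a, q)).comp (ContinuousLinearMap.inr ℝ E F)) q :=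
  h.hasFDerivAt.comp q (hasFDerivAt_prodMk_right a q)

/-- the two mixed second derivatives -/
theorem mixed_symm {K : E × F → ℝ} {a₀ : E} {q₀ : F} (h : ContDiffAt ℝ 2 K (a₀, q₀)) :
    ∃ M : F →L[ℝ] E →L[ℝ] ℝ, HasFDerivAt (fun q => fderiv ℝ (fun a => K (a, q)) a₀) M q₀ ∧
      ∀ k v, M k v = fderiv ℝ (fun a => fderiv ℝ (fun q => K (a, q)) q₀) a₀ v k := by
  have hd : ∀ᶠ p in 𝓝 (a₀, q₀), DifferentiableAt ℝ K p := by
    have h1 := h.eventually (by simp)
    filter_upwards [h1] with p hp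
    exact hp.differentiableAt (by simp)
  have hD : HasFDerivAt (fderiv ℝ K) (fderiv ℝ (fderiv ℝ K) (a₀, q₀)) (a₀, q₀) :=
    ((h.fderiv_right (m := 1) (by norm_num)).differentiableAt (by simp)).hasFDerivAt
  have hs := h.isSymmSndFDerivAt (by simp)
  set D2 := fderiv ℝ (fderiv ℝ K) (a₀, q₀) with hD2
  -- first order
  have e1 : ∀ᶠ q in 𝓝 q₀, fderiv ℝ (fun a => K (a, q)) a₀
      = (fderiv ℝ K (a₀, q)).comp (ContinuousLinearMap.inl ℝ E F) := by
    have hc : Tendsto (fun q : F => (a₀, q)) (𝓝 q₀) (𝓝 (a₀, q₀)) :=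
      (Continuous.prodMk_right a₀).tendsto q₀
    filter_upwards [hc.eventually hd] with q hq
    exact (fderiv_left hq).fderiv
  have e2 : ∀ᶠ a in 𝓝 a₀, fderiv ℝ (fun q => K (a, q)) q₀
      = (fderiv ℝ K (a, q₀)).comp (ContinuousLinearMap.inr ℝ E F) := by
    have hc : Tendsto (fun a : E => (a, q₀)) (𝓝 a₀) (𝓝 (a₀, q₀)) :=
      (Continuous.prodMk_left q₀).tendsto a₀
    filter_upwards [hc.eventually hd] with a ha
    exact (fderiv_right ha).fderiv
  -- second order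
  have d1 : HasFDerivAt (fun q : F => fderiv ℝ K (a₀, q))
      (D2.comp (ContinuousLinearMap.inr ℝ E F)) q₀ :=
    hD.comp q₀ (hasFDerivAt_prodMk_right a₀ q₀)
  have d2 : HasFDerivAt (fun a : E => fderiv ℝ K (a, q₀))
      (D2.comp (ContinuousLinearMap.inl ℝ E F)) a₀ :=
    hD.comp a₀ (hasFDerivAt_prodMk_left a₀ q₀)
  have d3 := d1.clm_comp (hasFDerivAt_const (ContinuousLinearMap.inl ℝ E F) q₀)
  have d4 := d2.clm_comp (hasFDerivAt_const (ContinuousLinearMap.inr ℝ E F) a₀)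
  refine ⟨_, d3.congr_of_eventuallyEq e1, fun k v => ?_⟩
  rw [(d4.congr_of_eventuallyEq e2).fderiv]
  simp only [add_apply, ContinuousLinearMap.comp_apply, ContinuousLinearMap.flip_apply,
    ContinuousLinearMap.compL_apply, ContinuousLinearMap.inl_apply, ContinuousLinearMap.inr_apply,
    zero_apply, map_zero, zero_add]
  simpa using hs (0, k) (v, 0)

end Sym

namespace SB

variable {X B V : Type} [TopologicalSpace X] [TopologicalSpace B] [CompactSpace B] [T2Space B]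
  [NormedAddCommGroup V] [NormedSpace ℝ V] [FiniteDimensional ℝ V]
  (M : SB X B V)

theorem line_line (ξ : B) (q : V) : M.D.line (M.D.line ξ q) q = ξ := by
  refine M.D.ell_inj (q := q) ?_
  rw [M.D.ell_line, M.D.ell_line, neg_neg]

theorem P_zero (x : X) : M.P x 0 = M.L.ft x := M.L.A_zero x

theorem e_zero (x : X) : M.e x 0 = M.D.line (M.L.em x) (M.L.ft x) := by
  rw [e_eq, P_zero]

theorem zero_BR : (0 : E2) ∈ M.BR := M.L.zero_mem

variable [Nonempty B]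

/-- the derivative of the covector of `e z a` at the foot point of `z` -/
theorem ell_e_deriv (hs : M.D.SmoothHess) (z : X) (v : E2) :
    fderiv ℝ (fun a => M.D.ell (M.e z a) (M.P z 0)) 0 v
      = -M.D.Sg (M.L.em z) (M.P z 0) (fderiv ℝ (M.P z) 0 v) := by
  have hj := M.ell_chart_jc hs
  set h : E2 × V → V →L[ℝ] ℝ := fun p => M.D.ell (M.e z p.1) p.2 with hh
  have hd : DifferentiableAt ℝ h (0, M.P z 0) :=
    hj.differentiableAt (p := (z, (0, M.P z 0))) ⟨mem_univ _, M.zero_BR, mem_univ _⟩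
  have hP := M.P_diff z M.zero_BR
  have h1 := (fderiv_left hd).fderiv
  have h2 : fderiv ℝ (M.D.ell (M.e z 0)) (M.P z 0)
      = (fderiv ℝ h (0, M.P z 0)).comp (ContinuousLinearMap.inr ℝ E2 V) :=
    (fderiv_right hd).fderiv
  -- the curve `a ↦ (a, P z a)`
  have h3 : HasFDerivAt (fun a => h (a, M.P z a)) ((fderiv ℝ h (0, M.P z 0)).comp
      ((ContinuousLinearMap.id ℝ E2).prod (fderiv ℝ (M.P z) 0))) 0 := by
    have h30 : HasFDerivAt (fun a : E2 => (a, M.P z a))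
        ((ContinuousLinearMap.id ℝ E2).prod (fderiv ℝ (M.P z) 0)) 0 :=
      (hasFDerivAt_id (𝕜 := ℝ) (0 : E2)).prodMk hP
    exact HasFDerivAt.comp (g := h) (f := fun a : E2 => (a, M.P z a)) 0 hd.hasFDerivAt h30
  have h4 : (fun a => h (a, M.P z a)) = fun a => -M.D.ell (M.L.em z) (M.P z a) :=
    funext fun a => M.ell_e z a
  rw [h4] at h3
  have h5 := h3.unique ((M.D.ell_diff (M.L.em z) (M.P z 0)).comp (0 : E2) hP).neg
  have h6 := congrArg (fun A : E2 →L[ℝ] V →L[ℝ] ℝ => A v) h5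
  have h7 : ((v, fderiv ℝ (M.P z) 0 v) : E2 × V) = (v, 0) + (0, fderiv ℝ (M.P z) 0 v) := by
    ext1 <;> simp
  simp only [ContinuousLinearMap.comp_apply, ContinuousLinearMap.prod_apply,
    ContinuousLinearMap.id_apply, neg_apply] at h6
  rw [h7, map_add] at h6
  have h8 : fderiv ℝ (fun a => M.D.ell (M.e z a) (M.P z 0)) 0 v = fderiv ℝ h (0, M.P z 0) (v, 0) := by
    have h1' : fderiv ℝ (fun a => M.D.ell (M.e z a) (M.P z 0)) 0
        = (fderiv ℝ h (0, M.P z 0)).comp (ContinuousLinearMap.inl ℝ E2 V) := h1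
    rw [h1']
    rfl
  have h9 : fderiv ℝ h (0, M.P z 0) (0, fderiv ℝ (M.P z) 0 v)
      = fderiv ℝ (M.D.ell (M.e z 0)) (M.P z 0) (fderiv ℝ (M.P z) 0 v) := by
    rw [h2]
    rfl
  rw [h8]
  rw [h9] at h6
  rw [BD.Sg, add_apply, neg_add, ← M.e_eq]
  exact eq_sub_of_add_eq h6 |>.trans (sub_eq_add_neg _ _)

/-- **The mixed second derivative of `D` at opposite frames.** -/
theorem mixed (hs : M.D.SmoothHess) (o : V) {Dd : B → B → ℝ} (hDd : ∀ ξ q, Dd ξ (M.D.line ξ q)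
      = (M.D.b ξ q - M.D.b ξ o) + (M.D.b (M.D.line ξ q) q - M.D.b (M.D.line ξ q) o))
    {z z' : X} (hft : M.L.ft z = M.L.ft z') (hem : M.L.em z' = M.D.line (M.L.em z) (M.L.ft z)) :
    ∃ A : E2 →L[ℝ] E2 →L[ℝ] ℝ,
      HasFDerivAt (fun b => fderiv ℝ (fun a => Dd (M.e z a) (M.e z' b)) 0) A 0 ∧
      ∀ w v, A w v = -M.D.Sg (M.L.em z) (M.L.ft z) (fderiv ℝ (M.P z) 0 v)
        (fderiv ℝ (M.P z') 0 w) := by
  set q₀ := M.L.ft z with hq₀
  have hPz : M.P z 0 = q₀ := M.P_zero z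
  have hPz' : M.P z' 0 = q₀ := (M.P_zero z').trans hft.symm
  -- `K (a, q) = b_{e z a} (q)`
  set K : E2 × V → ℝ := fun p => M.D.b (M.e z p.1) p.2 - M.D.b (M.e z p.1) o with hK
  have hKj := M.b_chart_jc hs o
  have hKs : ∀ a ∈ M.BR, ∀ q, ContDiffAt ℝ ∞ K (a, q) := fun a ha q =>
    hKj.contDiffAt (p := (z, (a, q))) ⟨mem_univ _, ha, mem_univ _⟩
  have hKd : ∀ a ∈ M.BR, ∀ q, DifferentiableAt ℝ K (a, q) := fun a ha q =>
    (hKs a ha q).differentiableAt (by simp)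
  have hK2 : ∀ a q, fderiv ℝ (fun q => K (a, q)) q = M.D.ell (M.e z a) q := fun a q => by
    have h := ((M.D.b_diff (M.e z a) q).sub_const (M.D.b (M.e z a) o)).fderiv
    exact h
  obtain ⟨A₀, hA₀, hA₀'⟩ := mixed_symm ((hKs 0 M.zero_BR q₀).of_le
    (by norm_cast : (2 : WithTop ℕ∞) ≤ ∞))
  have hA₀'' : ∀ k v, A₀ k v = -M.D.Sg (M.L.em z) q₀ (fderiv ℝ (M.P z) 0 v) k := by
    intro k v
    rw [hA₀' k v]
    have h1 : (fun a => fderiv ℝ (fun q => K (a, q)) q₀) = fun a => M.D.ell (M.e z a) (M.P z 0) := by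
      funext a
      rw [hK2, hPz]
    rw [h1, M.ell_e_deriv hs z v, hPz]
    rfl
  -- the crossing point
  set S₀ : Set (Unit × (E2 × E2)) := univ ×ˢ (M.BR ×ˢ M.BR) with hS₀d
  have hS₀ : IsOpen S₀ := isOpen_univ.prod (M.isOpen_BR.prod M.isOpen_BR)
  have hSV : IsOpen ({p | (p.1, p.2.1) ∈ S₀} : Set (Unit × ((E2 × E2) × V))) :=
    hS₀.preimage (f := fun p : Unit × ((E2 × E2) × V) => (p.1, p.2.1)) (by fun_prop)
  have hidV : JC (fun (_ : Unit) (p : (E2 × E2) × V) => p) {p | (p.1, p.2.1) ∈ S₀} := JC.id hSV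
  have hξ : JC (fun (_ : Unit) (p : (E2 × E2) × V) => M.D.ell (M.e z p.1.1) p.2)
      {p | (p.1, p.2.1) ∈ S₀} :=
    ((M.ell_chart_jc hs).pullback (continuous_const : Continuous fun _ : Unit => z)).comp'
      (hidV.fst.fst.prodMk hidV.snd) fun p hp => ⟨mem_univ _, hp.2.1, mem_univ _⟩
  have hη : JC (fun (_ : Unit) (p : (E2 × E2) × V) => M.D.ell (M.e z' p.1.2) p.2)
      {p | (p.1, p.2.1) ∈ S₀} :=
    ((M.ell_chart_jc hs).pullback (continuous_const : Continuous fun _ : Unit => z')).comp'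
      (hidV.fst.snd.prodMk hidV.snd) fun p hp => ⟨mem_univ _, hp.2.2, mem_univ _⟩
  have hez : M.e z 0 = M.L.em z' := by rw [M.e_zero, hem]
  obtain ⟨T, φ, h1, h2, h3, h4, O, h5, h6, h7⟩ := M.cross (Z := Unit) (E := E2 × E2)
    (ξ := fun _ p => M.e z p.1) (η := fun _ p => M.e z' p.2) (y := fun _ => z')
    continuous_const hS₀ hξ hη (z₀ := ()) (u₀ := (0, 0)) (a₀ := 0)
    ⟨mem_univ _, M.zero_BR, M.zero_BR⟩ M.zero_BR hez.symm
    (by rw [hez, ← M.e_eq])
  -- near `b = 0` the crossing point of `(e z 0, e z' b)` is `b`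
  have hb : ∀ᶠ b in 𝓝 (0 : E2), ((), ((0 : E2), b)) ∈ T ∧ φ () (0, b) = b ∧ b ∈ M.BR := by
    have hc : Continuous fun b : E2 => (((), (((0 : E2), b), b)) : Unit × ((E2 × E2) × E2)) := by
      fun_prop
    have h8 : ∀ᶠ b in 𝓝 (0 : E2), (((), (((0 : E2), b), b)) : Unit × ((E2 × E2) × E2)) ∈ O :=
      hc.continuousAt.eventually (h5.mem_nhds h6)
    filter_upwards [h8, M.isOpen_BR.mem_nhds M.zero_BR] with b hbO hbR
    have h9 := h7 _ hbO (by rw [hez, ← M.e_eq])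
    exact ⟨h9.1, h9.2, hbR⟩
  -- the envelope identity
  have henv : ∀ᶠ b in 𝓝 (0 : E2), fderiv ℝ (fun a => Dd (M.e z a) (M.e z' b)) 0
      = fderiv ℝ (fun a => K (a, M.P z' b)) 0 := by
    filter_upwards [hb] with b hb0
    obtain ⟨hT, hφb, hbR⟩ := hb0
    have hφd : DifferentiableAt ℝ (φ ()) ((0 : E2), b) :=
      h1.differentiableAt (p := ((), ((0 : E2), b))) hT
    have hφa : HasFDerivAt (fun a => φ () (a, b))
        ((fderiv ℝ (φ ()) (0, b)).comp (ContinuousLinearMap.inl ℝ E2 E2)) 0 := fderiv_left hφd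
    set C := (fderiv ℝ (φ ()) (0, b)).comp (ContinuousLinearMap.inl ℝ E2 E2) with hC
    -- `T (a, b) = K (a, P φ) + b_{e z' b} (P φ)` near `a = 0`
    have h10 : (fun a => Dd (M.e z a) (M.e z' b)) =ᶠ[𝓝 0] fun a =>
        K (a, M.P z' (φ () (a, b))) + (M.D.b (M.e z' b) (M.P z' (φ () (a, b)))
          - M.D.b (M.e z' b) o) := by
      have hcT : Continuous fun a : E2 => (((), (a, b)) : Unit × (E2 × E2)) := by fun_prop
      filter_upwards [hcT.continuousAt.eventually (h1.isOpen.mem_nhds hT)] with a ha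
      have h11 := (h4 _ ha).2.2
      have h12 := hDd (M.e z a) (M.P z' (φ () (a, b)))
      simp only at h11
      rw [h11] at h12
      exact h12
    have hPd : HasFDerivAt (M.P z') (fderiv ℝ (M.P z') b) b := M.P_diff z' hbR
    have hPφ : HasFDerivAt (fun a => M.P z' (φ () (a, b))) ((fderiv ℝ (M.P z') b).comp C) 0 := by
      have : HasFDerivAt (M.P z') (fderiv ℝ (M.P z') b) (φ () (0, b)) := by rw [hφb]; exact hPd
      exact this.comp (0 : E2) hφa
    have hKat : HasFDerivAt K (fderiv ℝ K (0, M.P z' b)) (0, M.P z' (φ () (0, b))) := by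
      rw [hφb]
      exact (hKd 0 M.zero_BR _).hasFDerivAt
    have e0 : HasFDerivAt (fun a : E2 => (a, M.P z' (φ () (a, b))))
        ((ContinuousLinearMap.id ℝ E2).prod ((fderiv ℝ (M.P z') b).comp C)) 0 :=
      (hasFDerivAt_id (𝕜 := ℝ) (0 : E2)).prodMk hPφ
    have e1 : HasFDerivAt (fun a => K (a, M.P z' (φ () (a, b))))
        ((fderiv ℝ K (0, M.P z' b)).comp ((ContinuousLinearMap.id ℝ E2).prod
          ((fderiv ℝ (M.P z') b).comp C))) 0 :=
      HasFDerivAt.comp (g := K) (f := fun a : E2 => (a, M.P z' (φ () (a, b)))) 0 hKat e0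
    have hbd : HasFDerivAt (M.D.b (M.e z' b)) (M.D.ell (M.e z' b) (M.P z' b))
        (M.P z' (φ () (0, b))) := by
      rw [hφb]
      exact M.D.b_diff _ _
    have e2 : HasFDerivAt (fun a => M.D.b (M.e z' b) (M.P z' (φ () (a, b))) - M.D.b (M.e z' b) o)
        ((M.D.ell (M.e z' b) (M.P z' b)).comp ((fderiv ℝ (M.P z') b).comp C)) 0 :=
      (hbd.comp (0 : E2) hPφ).sub_const _
    have e3 := (e1.add e2).congr_of_eventuallyEq h10
    rw [e3.fderiv, (fderiv_left (hKd 0 M.zero_BR (M.P z' b))).fderiv]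
    ext v
    have h13 : ((v, fderiv ℝ (M.P z') b (C v)) : E2 × V)
        = (v, 0) + (0, fderiv ℝ (M.P z') b (C v)) := by ext1 <;> simp
    simp only [add_apply, ContinuousLinearMap.comp_apply, ContinuousLinearMap.prod_apply,
      ContinuousLinearMap.id_apply, ContinuousLinearMap.inl_apply]
    rw [h13, map_add]
    have h14 : fderiv ℝ K (0, M.P z' b) (0, fderiv ℝ (M.P z') b (C v))
        = M.D.ell (M.e z 0) (M.P z' b) (fderiv ℝ (M.P z') b (C v)) := by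
      rw [← hK2, (fderiv_right (hKd 0 M.zero_BR (M.P z' b))).fderiv]
      rfl
    have h15 : M.D.ell (M.e z' b) (M.P z' b) = -M.D.ell (M.e z 0) (M.P z' b) := by
      rw [M.ell_e, hez]
    rw [h14, h15, neg_apply, add_assoc, add_neg_cancel, add_zero]
  have hP' : HasFDerivAt (M.P z') (fderiv ℝ (M.P z') 0) 0 := M.P_diff z' M.zero_BR
  have hA₀P : HasFDerivAt (fun q => fderiv ℝ (fun a => K (a, q)) 0) A₀ (M.P z' 0) := by
    rw [hPz']
    exact hA₀
  have hfin := (hA₀P.comp (0 : E2) hP').congr_of_eventuallyEq henv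
  refine ⟨_, hfin, fun w v => ?_⟩
  rw [ContinuousLinearMap.comp_apply, hA₀'']

/-! ### Nondegeneracy everywhere -/

theorem e_inj (x : X) : InjOn (M.e x) (closedBall 0 3) := M.L.e_inj x

/-- change of the chart -/
theorem chart_change (hs : M.D.SmoothHess) {x z : X} {u₀ v₀ : E2} (hu : u₀ ∈ ball (0 : E2) 3)
    (hv : v₀ ∈ ball (0 : E2) 3) (h : M.e x u₀ = M.e z v₀) :
    ∃ f : E2 → E2, DifferentiableAt ℝ f u₀ ∧ f u₀ = v₀ ∧ (∀ᶠ a in 𝓝 u₀, M.e z (f a) = M.e x a) ∧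
      Function.Bijective (fderiv ℝ f u₀) := by
  have hu' := M.mem_BR (ball_subset_closedBall hu)
  have hv' := M.mem_BR (ball_subset_closedBall hv)
  obtain ⟨T, φ, h1, h2, h3, h4, -⟩ := M.tau_local_all hs hu' hv' h
  obtain ⟨T', ψ, h1', h2', h3', h4', -⟩ := M.tau_local_all hs hv' hu' h.symm
  have hf : DifferentiableAt ℝ (φ (x, z)) u₀ := h1.differentiableAt (p := ((x, z), u₀)) h2
  have hg : DifferentiableAt ℝ (ψ (z, x)) v₀ := h1'.differentiableAt (p := ((z, x), v₀)) h2'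
  have hev : ∀ᶠ a in 𝓝 u₀, M.e z (φ (x, z) a) = M.e x a := by
    filter_upwards [(isOpen_slice h1.isOpen (x, z)).mem_nhds h2] with a ha
    exact (h4 _ ha).2.2
  have hg3 : HasFDerivAt (ψ (z, x)) (fderiv ℝ (ψ (z, x)) v₀) (φ (x, z) u₀) := by
    rw [h3]
    exact hg.hasFDerivAt
  have hcomp := hg3.comp u₀ hf.hasFDerivAt
  have hid : (fun a => ψ (z, x) (φ (x, z) a)) =ᶠ[𝓝 u₀] fun a => a := by
    have hφT : ∀ᶠ a in 𝓝 u₀, ((z, x), φ (x, z) a) ∈ T' := by
      have : ((z, x), φ (x, z) u₀) ∈ T' := by rw [h3]; exact h2'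
      exact hf.continuousAt.eventually ((isOpen_slice h1'.isOpen (z, x)).mem_nhds this)
    have hc : ContinuousAt (fun a => ψ (z, x) (φ (x, z) a)) u₀ := hcomp.continuousAt
    have hψ3 : ∀ᶠ a in 𝓝 u₀, ψ (z, x) (φ (x, z) a) ∈ ball (0 : E2) 3 := by
      refine hc.eventually (isOpen_ball.mem_nhds ?_)
      change ψ (z, x) (φ (x, z) u₀) ∈ ball (0 : E2) 3
      rw [h3, h3']
      exact hu
    filter_upwards [hev, hφT, hψ3, isOpen_ball.mem_nhds hu] with a ha1 ha2 ha3 ha4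
    refine M.e_inj x (ball_subset_closedBall ha3) (ball_subset_closedBall ha4) ?_
    have := (h4' _ ha2).2.2
    simp only at this
    rw [this, ha1]
  have hGF : (fderiv ℝ (ψ (z, x)) v₀).comp (fderiv ℝ (φ (x, z)) u₀)
      = ContinuousLinearMap.id ℝ E2 :=
    (hcomp.congr_of_eventuallyEq hid.symm).unique (hasFDerivAt_id u₀)
  have hinj : Function.Injective (fderiv ℝ (φ (x, z)) u₀).toLinearMap := by
    intro v w hvw
    have h5 : ∀ v, fderiv ℝ (ψ (z, x)) v₀ (fderiv ℝ (φ (x, z)) u₀ v) = v := fun v =>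
      congrArg (fun A : E2 →L[ℝ] E2 => A v) hGF
    rw [← h5 v, ← h5 w]
    exact congrArg _ hvw
  exact ⟨φ (x, z), hf, h3, hev, hinj, LinearMap.injective_iff_surjective.1 hinj⟩

/-- the form `(v, w) ↦ Sg (DP_z v) (DP_z' w)` is nondegenerate -/
theorem form_inj {z z' : X} {q : V} (hz : M.L.ft z = q) (hz' : M.L.ft z' = q)
    (hem : M.L.em z' = M.D.line (M.L.em z) q) {w : E2}
    (h : ∀ v, M.D.Sg (M.L.em z) q (fderiv ℝ (M.P z) 0 v) (fderiv ℝ (M.P z') 0 w) = 0) : w = 0 := by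
  by_contra hne'
  set k := fderiv ℝ (M.P z') 0 w with hk
  have h10 : ∀ v : V, M.D.Sg (M.L.em z) q v k = 0 := by
    intro v
    obtain ⟨p, hp⟩ := (M.L.A_der z 0 M.L.zero_mem).2 v
    have h11 := M.A_fderiv z M.zero_BR p.1 p.2
    have h12 : fderiv ℝ (M.L.A z) (0, 0) (p.1, p.2) = v := hp
    rw [h12, M.P_zero, hz] at h11
    rw [h11, map_add, add_apply, h, add_zero, map_smul, smul_apply, M.D.Sg_symm, M.D.Sg_vel,
      smul_zero]
  have h13 : 0 < M.D.Sg (M.L.em z) q k k := by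
    refine M.D.Sg_pos' fun c hc => ?_
    refine M.transv z' M.zero_BR hne' (-c) ?_
    rw [← hk, hc, M.P_zero, hz', hem, M.D.vel_line, smul_neg, neg_smul, neg_neg]
  rw [h10] at h13
  exact lt_irrefl _ h13

/-- the first derivative of `D`, in two charts -/
theorem D_fderiv_chart (hs : M.D.SmoothHess)
    (hjoin : ∀ ξ η : B, ξ ≠ η → ∃ q, M.D.line ξ q = η)
    (o : V) {Dd : B → B → ℝ} (hDd : ∀ ξ q, Dd ξ (M.D.line ξ q)
      = (M.D.b ξ q - M.D.b ξ o) + (M.D.b (M.D.line ξ q) q - M.D.b (M.D.line ξ q) o))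
    {x y z z' : X} {a₀ b₀ : E2} {f1 f2 : E2 → E2} (hne : M.e z 0 ≠ M.e z' 0)
    (hf1 : DifferentiableAt ℝ f1 a₀) (hf10 : f1 a₀ = 0)
    (hf1e : ∀ᶠ a in 𝓝 a₀, M.e z (f1 a) = M.e x a)
    (hf2 : ContinuousAt f2 b₀) (hf20 : f2 b₀ = 0)
    (hf2e : ∀ᶠ b in 𝓝 b₀, M.e z' (f2 b) = M.e y b) :
    (fun b => fderiv ℝ (fun a => Dd (M.e x a) (M.e y b)) a₀) =ᶠ[𝓝 b₀] fun b =>
      (fderiv ℝ (fun a => Dd (M.e z a) (M.e z' (f2 b))) 0).comp (fderiv ℝ f1 a₀) := by
  have hDj := M.D_jc hs hjoin o Dd hDd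
  have hdom : ∀ᶠ b in 𝓝 b₀, ((z, z'), ((0 : E2), f2 b)) ∈ {p : (X × X) × (E2 × E2) |
      p.2.1 ∈ M.BR ∧ p.2.2 ∈ M.BR ∧ M.e p.1.1 p.2.1 ≠ M.e p.1.2 p.2.2} := by
    have hc : ContinuousAt (fun b : E2 => (((z, z'), ((0 : E2), f2 b)) : (X × X) × (E2 × E2)))
        b₀ := continuousAt_const.prodMk (continuousAt_const.prodMk hf2)
    have h0 : (((z, z'), ((0 : E2), f2 b₀)) : (X × X) × (E2 × E2)) ∈
        {p : (X × X) × (E2 × E2) |
          p.2.1 ∈ M.BR ∧ p.2.2 ∈ M.BR ∧ M.e p.1.1 p.2.1 ≠ M.e p.1.2 p.2.2} := by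
      rw [hf20]
      exact ⟨M.zero_BR, M.zero_BR, hne⟩
    exact hc.eventually (hDj.isOpen.mem_nhds h0)
  filter_upwards [hf2e, hdom] with b hb1 hb2
  have h1 : (fun a => Dd (M.e x a) (M.e y b)) =ᶠ[𝓝 a₀]
      fun a => Dd (M.e z (f1 a)) (M.e z' (f2 b)) := by
    filter_upwards [hf1e] with a ha1
    rw [ha1, hb1]
  have h2 : DifferentiableAt ℝ (fun p : E2 × E2 => Dd (M.e z p.1) (M.e z' p.2))
      ((0 : E2), f2 b) := hDj.differentiableAt (p := ((z, z'), ((0 : E2), f2 b))) hb2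
  have h2' : DifferentiableAt ℝ (fun a => Dd (M.e z a) (M.e z' (f2 b))) 0 :=
    (fderiv_left h2).differentiableAt
  have h3 : HasFDerivAt (fun a => Dd (M.e z a) (M.e z' (f2 b)))
      (fderiv ℝ (fun a => Dd (M.e z a) (M.e z' (f2 b))) 0) (f1 a₀) := by
    rw [hf10]
    exact h2'.hasFDerivAt
  have h4 : HasFDerivAt (fun a => Dd (M.e z (f1 a)) (M.e z' (f2 b)))
      ((fderiv ℝ (fun a => Dd (M.e z a) (M.e z' (f2 b))) 0).comp (fderiv ℝ f1 a₀)) a₀ :=
    HasFDerivAt.comp (g := fun a => Dd (M.e z a) (M.e z' (f2 b))) a₀ h3 hf1.hasFDerivAt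
  exact (h4.congr_of_eventuallyEq h1).fderiv

/-- **The mixed second derivative of `D` is nondegenerate.** -/
theorem nondeg (hs : M.D.SmoothHess) (hjoin : ∀ ξ η : B, ξ ≠ η → ∃ q, M.D.line ξ q = η)
    (o : V) {Dd : B → B → ℝ} (hDd : ∀ ξ q, Dd ξ (M.D.line ξ q)
      = (M.D.b ξ q - M.D.b ξ o) + (M.D.b (M.D.line ξ q) q - M.D.b (M.D.line ξ q) o))
    {x y : X} {a₀ b₀ : E2} (ha : a₀ ∈ ball (0 : E2) 3) (hb : b₀ ∈ ball (0 : E2) 3)
    (hne : M.e x a₀ ≠ M.e y b₀) : Function.Injective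
      (fderiv ℝ (fun b => fderiv ℝ (fun a => Dd (M.e x a) (M.e y b)) a₀) b₀) := by
  obtain ⟨q, hq⟩ := hjoin _ _ hne
  obtain ⟨z', hz1, hz2⟩ := M.L.frame (M.e x a₀) q
  obtain ⟨z, hz3, hz4⟩ := M.L.frame (M.e y b₀) q
  have h03 : (0 : E2) ∈ ball (0 : E2) 3 := mem_ball_self (by norm_num)
  have hem : M.L.em z' = M.D.line (M.L.em z) (M.L.ft z) := by
    rw [hz1, hz3, hz4, ← hq, M.line_line]
  have hez : M.e x a₀ = M.e z 0 := by rw [M.e_zero, ← hem, hz1]
  have hez' : M.e y b₀ = M.e z' 0 := by rw [M.e_zero, hz1, hz2, hq]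
  obtain ⟨A, hA, hA'⟩ := M.mixed hs o hDd (hz4.trans hz2.symm) hem
  obtain ⟨f1, hf1, hf10, hf1e, hf1b⟩ := M.chart_change hs ha h03 hez
  obtain ⟨f2, hf2, hf20, hf2e, hf2b⟩ := M.chart_change hs hb h03 hez'
  have hez0 : M.e z 0 ≠ M.e z' 0 := by rw [← hez, ← hez']; exact hne
  have hev := M.D_fderiv_chart hs hjoin o hDd hez0 hf1 hf10 hf1e hf2.continuousAt hf20 hf2e
  -- the derivative
  have hA0 : HasFDerivAt (fun b => fderiv ℝ (fun a => Dd (M.e z a) (M.e z' b)) 0) A (f2 b₀) := by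
    rw [hf20]
    exact hA
  have h3 : HasFDerivAt (fun b => fderiv ℝ (fun a => Dd (M.e z a) (M.e z' (f2 b))) 0)
      (A.comp (fderiv ℝ f2 b₀)) b₀ :=
    HasFDerivAt.comp (g := fun b => fderiv ℝ (fun a => Dd (M.e z a) (M.e z' b)) 0) b₀ hA0
      hf2.hasFDerivAt
  have h4 := h3.clm_comp (hasFDerivAt_const (fderiv ℝ f1 a₀) b₀)
  have h5 := h4.congr_of_eventuallyEq hev
  rw [h5.fderiv, injective_iff_map_eq_zero]
  intro w hw
  have h6 : A (fderiv ℝ f2 b₀ w) = 0 := by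
    ext v
    obtain ⟨v', rfl⟩ := hf1b.2 v
    have h7 := congrArg (fun B : E2 →L[ℝ] ℝ => B v') hw
    simpa using h7
  have h8 : fderiv ℝ f2 b₀ w = 0 := by
    refine M.form_inj hz4 hz2 (hem.trans (by rw [hz4])) fun v => ?_
    have := hA' (fderiv ℝ f2 b₀ w) v
    rw [h6, zero_apply, hz4] at this
    linarith
  have h16 : fderiv ℝ f2 b₀ w = fderiv ℝ f2 b₀ 0 := by rw [h8, map_zero]
  exact hf2b.1 h16

end SB

end Vale.Agent.P207.N4.H908
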